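import Vale.Agent.P011UF5.Qa
import Vale.Agent.P011UY.Asm

/-! The absolute values of a quaternion algebra. -/

set_option autoImplicit false
set_option linter.all false

noncomputable section

namespace Vale.Agent.P011UF4

open Module Filter Topology TensorProduct
open Vale.Agent.P011.H738 (Place)
open Vale.Agent.P011.H271 (norm_alg)
open Vale.Agent.P011UE Vale.Agent.P011UF5

/-- The small root of a quadratic equation. -/
theorem ex_root {R : Type} [NormedField R] [IsUltrametricDist R] [CompleteSpace R] {a : R}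
    (h : ‖a‖ < 1) : ∃ x : R, x ^ 2 - x + a = 0 := by
  have m : Set.MapsTo (fun x : R => a + x ^ 2) (Metric.closedBall 0 ‖a‖)
      (Metric.closedBall 0 ‖a‖) := fun x hx => by
    rw [mem_closedBall_zero_iff] at hx ⊢
    refine (IsUltrametricDist.norm_add_le_max _ _).trans (max_le le_rfl ?_)
    rw [norm_pow]
    nlinarith [norm_nonneg x]
  obtain ⟨x, -, e, -⟩ := ContractingWith.exists_fixedPoint' (K := ‖a‖₊)
    Metric.isClosed_closedBall.isComplete m ⟨h, LipschitzWith.of_dist_le_mul fun x y => by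
      change dist (a + x.1 ^ 2) (a + y.1 ^ 2) ≤ ‖a‖ * dist x.1 y.1
      rw [dist_add_left, dist_eq_norm, dist_eq_norm, sq_sub_sq, norm_mul]
      exact mul_le_mul_of_nonneg_right ((IsUltrametricDist.norm_add_le_max _ _).trans (max_le
        (mem_closedBall_zero_iff.1 x.2) (mem_closedBall_zero_iff.1 y.2))) (norm_nonneg _)⟩
    (Metric.mem_closedBall_self (norm_nonneg a)) (edist_ne_top _ _)
  have e1 : a + x ^ 2 = x := e
  exact ⟨x, by linear_combination e1⟩

variable {l Q : Type} [Field l] [DivisionRing Q] [Algebra l Q] [FiniteDimensional l Q]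
  {N : Q →* l} (h : Dv l Q 2 N) {w : Place l}
include h

theorem cen {x : Q} (k : ∀ y, y * x = x * y) : ∃ c, algebraMap l Q c = x :=
  haveI := h.central
  ((Algebra.IsCentral.mem_center_iff l).1 (Subalgebra.mem_center_iff.2 k)).imp fun _ => Eq.symm

theorem tr_alg (c : l) : tr N (algebraMap l Q c) = c + c :=
  (algebraMap l Q).injective (by rw [← add_cj, cj_alg h, map_add])

theorem tr_one (d : Dp Q w) {x : Q} (k : w.abv (N x) ≤ 1) : w.abv (tr N x) ≤ 1 := by
  refine not_lt.1 fun j => ?_
  have t0 : tr N x ≠ 0 := w.abv.pos_iff.1 (zero_lt_one.trans j)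
  obtain ⟨r, e⟩ := ex_root (a := algebraMap l w.comp (N x / tr N x ^ 2)) (by
    rw [norm_alg, map_div₀, map_pow, div_lt_one (by positivity)]
    nlinarith)
  let i : Q →ₐ[l] w.comp ⊗[l] Q := Algebra.TensorProduct.includeRight
  let s := algebraMap w.comp (w.comp ⊗[l] Q)
  have hs : ∀ c, i (algebraMap l Q c) = s (algebraMap l _ c) := fun c =>
    (i.commutes c).trans (IsScalarTower.algebraMap_apply l w.comp _ c)
  have key : ∀ z, i x = s z → False := fun z hz => by
    obtain ⟨c, rfl⟩ := cen h (x := x) fun y => i.toRingHom.injective (by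
      show i _ = i _
      rw [map_mul, map_mul, hz, Algebra.commutes])
    rw [h.alg, map_pow] at k
    rw [tr_alg h] at j
    have := j.trans_le (w.nonarch c c)
    rw [max_self] at this
    nlinarith
  set t := algebraMap l w.comp (tr N x)
  have e1 : t * r * (t - t * r) = algebraMap l _ (N x) := by
    have t1 : t ≠ 0 := (map_ne_zero _).2 t0
    rw [map_div₀, map_pow] at e
    rw [← div_mul_cancel₀ (algebraMap l _ (N x)) (pow_ne_zero 2 t1)]
    linear_combination (-t ^ 2) * e
  have e2 : (i x - s (t * r)) * (i x - s (t - t * r)) = 0 := by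
    have e3 := congrArg i (mul_cj h x)
    rw [cj, map_mul, map_sub, hs, hs, ← e1, map_mul] at e3
    rw [sub_mul, mul_sub, mul_sub, ← e3, map_sub s, mul_sub, mul_sub,
      Algebra.commutes (t * r) (i x)]
    abel
  exact ((d _ fun z => key _ (sub_eq_zero.1 z)).mul
    (d _ fun z => key _ (sub_eq_zero.1 z))).ne_zero e2

theorem um (d : Dp Q w) (x y : Q) : w.abv (N (x + y)) ≤ max (w.abv (N x)) (w.abv (N y)) := by
  wlog k : w.abv (N x) ≤ w.abv (N y) generalizing x y
  · rw [add_comm, max_comm]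
    exact this y x (le_of_not_ge k)
  rcases eq_or_ne y 0 with rfl | y0
  · rw [add_zero]
    exact le_max_left _ _
  have p : 0 < w.abv (N y) := Hy.pos y0
  have e : w.abv (N (x * y⁻¹)) ≤ 1 := by
    rw [show w.abv (N (x * y⁻¹)) = _ from Hy.mul x y⁻¹, Hy.inv y0]
    exact (div_le_one p).2 k
  rw [show x + y = (x * y⁻¹ + 1) * y by rw [add_mul, inv_mul_cancel_right₀ y0, one_mul], map_mul,
    map_mul, show N (x * y⁻¹ + 1) = tr N (x * y⁻¹) + N (x * y⁻¹) + 1 by rw [tr]; ring]
  refine (mul_le_of_le_one_left p.le ?_).trans (le_max_right _ _)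
  exact (w.nonarch _ _).trans (max_le ((w.nonarch _ _).trans (max_le (tr_one h d e) e))
    (map_one w.abv).le)

/-- The trace as a linear map. -/
def trL : Q →ₗ[l] l where
  toFun := tr N
  map_add' x y := (algebraMap l Q).injective (by
    rw [map_add, ← add_cj, ← add_cj, ← add_cj, cj_add h]; abel)
  map_smul' c x := (algebraMap l Q).injective (by
    rw [RingHom.id_apply, smul_eq_mul, map_mul, ← add_cj, ← add_cj, Algebra.smul_def, cj_mul h,
      cj_alg h, ← Algebra.commutes, mul_add])

theorem tr_ne : ∃ x, tr N x ≠ 0 := by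
  by_contra! k
  have e : ∀ x, cj N x = -x := fun x => by rw [cj, k, map_zero, zero_sub]
  have : Function.Surjective (Algebra.linearMap l Q) := fun x => cen h fun y => by
    have e1 := cj_mul h x y
    have e2 := cj_mul h x 1
    rw [e, e, e, neg_mul_neg] at e1 e2
    rw [one_mul, mul_one] at e2
    rw [← e1, ← neg_mul, e2]
  have := LinearMap.finrank_le_finrank_of_surjective this
  rw [h.rank, finrank_self] at this
  omega

/-- Linear forms are traces. -/
theorem ex_dual (φ : Q →ₗ[l] l) : ∃ y, ∀ x, φ x = tr N (x * y) := by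
  let B : Q →ₗ[l] Dual l Q := (LinearMap.mul l Q).flip.compr₂ (trL h)
  have i : Function.Injective B := (injective_iff_map_eq_zero _).2 fun y e => by_contra fun y0 => by
    obtain ⟨x, k⟩ := tr_ne h
    exact k (by
      have : tr N (x * y⁻¹ * y) = 0 := LinearMap.congr_fun e (x * y⁻¹)
      rwa [inv_mul_cancel_right₀ y0] at this)
  obtain ⟨y, e⟩ := (LinearMap.injective_iff_surjective_of_finrank_eq_finrank
    Subspace.dual_finrank_eq.symm).1 i φ
  exact ⟨y, fun x => (LinearMap.congr_fun e x).symm⟩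

theorem small (d : Dp Q w) (φ : Q →ₗ[l] l) {ε : ℝ} (p : 0 < ε) :
    ∀ᶠ δ in 𝓝 (0 : ℝ), ∀ x, w.abv (N x) < δ → w.abv (φ x) < ε := by
  obtain ⟨y, e⟩ := ex_dual h φ
  have c : Tendsto (fun δ : ℝ => δ * nu w N y) (𝓝 0) (𝓝 (0 * nu w N y)) :=
    tendsto_id.mul_const _
  rw [zero_mul] at c
  refine (c.eventually_lt_const (pow_pos p 2)).mono fun δ k x j => ?_
  refine lt_of_pow_lt_pow_left₀ 2 p.le (e x ▸ (Hy.tr_le ⟨h, um h d⟩ _).trans_lt ?_)
  exact (Hy.mul _ _).trans_lt ((mul_le_mul_of_nonneg_right j.le (Hy.nn _)).trans_lt k)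

attribute [local instance] P011UY.tp

theorem approx (T : Finset (Place l)) (y : Place l → Q) {ε : ℝ} (p : 0 < ε) :
    ∃ z : Q, ∀ w ∈ T, w.abv (N (z - y w)) < ε := by
  obtain ⟨d, hd⟩ := P011UY.wa (T := T) fun v => (1 : v.comp) ⊗ₜ[l] y v
  refine Exists.imp' d (fun _ k => k) ((eventually_all_finset T).2 fun w hw => ?_ :
    ∀ᶠ m in atTop, ∀ w ∈ T, w.abv (N (d m - y w)) < ε).exists
  obtain ⟨g, c, e, -⟩ := P011UY.ex_nrd w.comp h
  haveI : IsModuleTopology w.comp (w.comp ⊗[l] Q) := ⟨rfl⟩
  haveI : IsTopologicalRing (w.comp ⊗[l] Q) := IsModuleTopology.isTopologicalRing w.comp _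
  have k := ((c.tendsto _).comp ((hd w hw).sub_const ((1 : w.comp) ⊗ₜ[l] y w))).norm
  rw [← tmul_sub, sub_self, e, N_zero h, map_zero, norm_zero] at k
  exact (k.eventually_lt_const p).mono fun m j => by
    rwa [Function.comp_apply, ← tmul_sub, e, norm_alg] at j

omit h in
theorem val : P011UF.VAL := fun l Q _ _ _ _ N h => by
  refine ⟨fun _ => um h, fun T d O ⟨_, ⟨ε, p, k⟩, j⟩ => ?_, fun T y _ => approx h T y⟩
  obtain ⟨δ, e, q⟩ := ((((eventually_all_finset T).2 fun w hw => eventually_all.2 fun i =>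
    small h (d w hw) ((finBasis l Q).coord i) p).filter_mono nhdsWithin_le_nhds).and
      (self_mem_nhdsWithin (s := Set.Ioi (0 : ℝ)))).exists
  exact ⟨δ, q, fun u hu => j (k u fun w hw i => e w hw i _ (hu w hw))⟩

end Vale.Agent.P011UF4

end
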